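import Mathlib

/-!
P124, Urysohn line (helper186). Common definitions of the formalisation.
The constants are  b = 10^15, eta = 1/300, eta2 = 1/600.
-/

namespace P124H186

/-- (junk beyond the current time) label-free data of a play: points `0,1,2,...`,
`D` the pseudometric, `isA t` = the point `t` is A-born, `P t l` (l<t) the attachment
lengths of an A-born point, `S t` the set of functionals on `{0..t}`
(functions on `ℕ`, only the values at `≤ t` matter). -/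
structure Geo where
  D : ℕ → ℕ → ℝ
  isA : ℕ → Prop
  P : ℕ → ℕ → ℝ
  S : ℕ → Set (ℕ → ℝ)

/-- the two plays agree up to time `n` -/
structure Agree (n : ℕ) (g g' : Geo) : Prop where
  D : ∀ i ≤ n, ∀ j ≤ n, g.D i j = g'.D i j
  isA : ∀ i ≤ n, g.isA i ↔ g'.isA i
  P : ∀ i ≤ n, ∀ j < i, g.P i j = g'.P i j
  S : ∀ i ≤ n, g.S i = g'.S i

/-- `g` is a legitimate label-free play up to time `n`. -/
structure Valid (n : ℕ) (g : Geo) : Prop where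
  D_self : ∀ i ≤ n, g.D i i = 0
  D_symm : ∀ i ≤ n, ∀ j ≤ n, g.D i j = g.D j i
  D_tri : ∀ i ≤ n, ∀ j ≤ n, ∀ k ≤ n, g.D i k ≤ g.D i j + g.D j k
  S_ne : (g.S 0).Nonempty
  S_congr : ∀ t ≤ n, ∀ s s' : ℕ → ℝ, (∀ i ≤ t, s i = s' i) → s ∈ g.S t → s' ∈ g.S t
  S_neg : ∀ t ≤ n, ∀ s ∈ g.S t, -s ∈ g.S t
  S_lip : ∀ t ≤ n, ∀ s ∈ g.S t, ∀ i ≤ t, ∀ j ≤ t, s i - s j ≤ g.D i j
  S_res : ∀ t < n, ∀ s ∈ g.S (t+1), s ∈ g.S t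
  A_ext : ∀ t < n, g.isA (t+1) → ∀ s ∈ g.S t, ∃ s' ∈ g.S (t+1), ∀ i ≤ t, s' i = s i
  A_flat : ∀ t < n, g.isA (t+1) → ∀ s ∈ g.S (t+1), ∀ l ≤ t, |s (t+1) - s l| ≤ g.P (t+1) l / 10^15
  A_le : ∀ t < n, g.isA (t+1) → ∀ k ≤ t, ∀ l ≤ t, g.D (t+1) k ≤ g.P (t+1) l + g.D l k
  A_eq : ∀ t < n, g.isA (t+1) → ∀ k ≤ t, ∃ l ≤ t, g.D (t+1) k = g.P (t+1) l + g.D l k
  B_ext : ∀ t < n, ¬ g.isA (t+1) → ∀ s ∈ g.S t, (∀ l ≤ t, |s (t+1) - s l| ≤ g.D (t+1) l) →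
    s ∈ g.S (t+1)

/-- the cone function -/
noncomputable def Psi (r d : ℝ) : ℝ := max (d / 10^15) (d - (1 - 1 / 10^15) * r)

/-- `s` satisfies the needs `R` at level `lam` -/
def Sat (s : ℕ → ℝ) (lam : ℝ) (R : ℕ → ℝ → Prop) : Prop := ∀ u q, R u q → lam ≤ s u + q

/-- the needs of an actual root `(v, r)` at time `t` -/
def ActR (g : Geo) (t v : ℕ) (r : ℝ) : ℕ → ℝ → Prop :=
  fun u q => u ≤ t ∧ q = Psi r (g.D v u)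

/-- cone system: root `(t0, rho)`, stop time `ts`, centre `w`, needs `R t` for `ts ≤ t ≤ t0`. -/
structure IsCS (g : Geo) (t0 : ℕ) (rho : ℝ) (ts w : ℕ) (R : ℕ → ℕ → ℝ → Prop) : Prop where
  rho_pos : 0 < rho
  ts_le : ts ≤ t0
  w_le : w ≤ ts
  R0 : ∀ c ≤ t0, ∃ q ≤ Psi rho (g.D t0 c), R t0 c q
  RA : ∀ t, ts ≤ t → t < t0 → g.isA (t+1) → ∀ s ∈ g.S (t+1), ∀ lam, Sat s lam (R t) →
    Sat s lam (R (t+1))
  RB1 : ∀ t, ts ≤ t → t < t0 → ¬ g.isA (t+1) → ∀ s ∈ g.S t, ∀ lam, Sat s lam (R t) →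
    ∀ u ≤ t, ∀ q, R (t+1) u q → lam ≤ s u + q
  RB2 : ∀ t, ts ≤ t → t < t0 → ¬ g.isA (t+1) → ∀ s ∈ g.S t, ∀ lam, Sat s lam (R t) →
    ∀ q, R (t+1) (t+1) q → ∀ l ≤ t, lam ≤ s l + g.D (t+1) l + q
  Rle : ∀ t, ts ≤ t → t ≤ t0 → ∀ u q, R t u q → u ≤ t
  Rlow : ∀ t, ts ≤ t → t ≤ t0 → ∀ u q, R t u q → -(rho / 10^4) ≤ q
  Rfar : ∀ t, ts ≤ t → t ≤ t0 → ∀ u q, R t u q → g.D w u - 10^10 * rho ≤ q
  R5 : g.D t0 w ≤ 10^10 * rho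
  /-- establishment at the stop time -/
  R4 : ∃ r gam : ℝ, 0 ≤ r ∧
    (∀ s ∈ g.S ts, ∀ lam, Sat s lam (ActR g ts w r) → Sat s (lam + gam) (R ts)) ∧
    ((r / 300 - rho / 600 ≤ gam) ∨
      (w = ts ∧ 0 < ts ∧ ¬ g.isA ts ∧ (∀ l < ts, 4 * r ≤ g.D ts l) ∧ -(rho / 600) ≤ gam)) ∧
    (ts = t0 → w = t0 ∧ (r = 0 ∨
      (0 < ts ∧ ¬ g.isA ts ∧ (∀ l < ts, 4 * r ≤ g.D ts l) ∧ -(rho / 600) ≤ gam)))

/-- exact finite ball property -/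
def BallProp (X : Type*) [PseudoMetricSpace X] : Prop :=
  ∀ (n : ℕ) (x : ℕ → X) (r : ℕ → ℝ), (∀ i ≤ n, ∀ j ≤ n, dist (x i) (x j) ≤ r i + r j) →
    ∃ y, ∀ i ≤ n, dist y (x i) ≤ r i

/-- exact finite Katetov extension property -/
def KatProp (W : Type*) [PseudoMetricSpace W] : Prop :=
  ∀ (n : ℕ) (x : ℕ → W) (f : ℕ → ℝ), (∀ i ≤ n, ∀ j ≤ n, f i - f j ≤ dist (x i) (x j)) →
    (∀ i ≤ n, ∀ j ≤ n, dist (x i) (x j) ≤ f i + f j) → ∃ w, ∀ i ≤ n, dist w (x i) = f i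

/-- the ball property for a subset -/
def BallPropOn {E : Type*} [PseudoMetricSpace E] (Ed : Set E) : Prop :=
  ∀ (n : ℕ) (x : ℕ → E) (r : ℕ → ℝ), (∀ i ≤ n, x i ∈ Ed) →
    (∀ i ≤ n, ∀ j ≤ n, dist (x i) (x j) ≤ r i + r j) →
    ∃ y ∈ Ed, ∀ i ≤ n, dist y (x i) ≤ r i

/-- the Hilbert cube -/
abbrev Q : Type := ℕ → unitInterval

/-- Z = C(Hilbert cube) -/
abbrev Z : Type := C(Q, ℝ)

/-- functions depending on finitely many coordinates -/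
def FinDep (z : Z) : Prop := ∃ N : ℕ, ∀ q q' : Q, (∀ i < N, q i = q' i) → z q = z q'

end P124H186
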